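import Vale.Agent.P236K.F87.D

/-!
# P236K / F87 : the test of the barcode
-/

namespace Vale.Agent.P236K.F87

theorem c0 : FF.chkR 0 0 90 = true := by decide +kernel

theorem c1 : FF.chkR 1 0 90 = true := by decide +kernel

theorem c2 : FF.chkR 2 0 90 = true := by decide +kernel

theorem c3 : FF.chkR 3 0 90 = true := by decide +kernel

end Vale.Agent.P236K.F87
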