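import Vale.Agent.P236K.F87.D

/-!
# P236K / F87 : the test of the barcode
-/

namespace Vale.Agent.P236K.F87

theorem c7 : FF.chkR 7 0 90 = true := by decide +kernel

theorem c8 : FF.chkR 8 0 90 = true := by decide +kernel

theorem c9 : FF.chkR 9 0 90 = true := by decide +kernel

end Vale.Agent.P236K.F87
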