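import Vale.Agent.P236K.F87.D

/-!
# P236K / F87 : the test of the barcode
-/

namespace Vale.Agent.P236K.F87

theorem c14 : FF.chkR 14 0 90 = true := by decide +kernel

theorem c15 : FF.chkR 15 0 90 = true := by decide +kernel

theorem c16 : FF.chkR 16 0 90 = true := by decide +kernel

theorem c17 : FF.chkR 17 0 90 = true := by decide +kernel

theorem c18 : FF.chkR 18 0 90 = true := by decide +kernel

end Vale.Agent.P236K.F87
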