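import Vale.Agent.P236K.F87.D

/-!
# P236K / F87 : the test of the barcode
-/

namespace Vale.Agent.P236K.F87

theorem c19 : FF.chkR 19 0 90 = true := by decide +kernel

theorem c20 : FF.chkR 20 0 90 = true := by decide +kernel

theorem c21 : FF.chkR 21 0 90 = true := by decide +kernel

theorem c22 : FF.chkR 22 0 90 = true := by decide +kernel

theorem c23 : FF.chkR 23 0 90 = true := by decide +kernel

theorem c24 : FF.chkR 24 0 90 = true := by decide +kernel

end Vale.Agent.P236K.F87
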