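import Vale.Agent.P236K.K53.Q
import Vale.Agent.P236K.Cert.F89
import Vale.Agent.P236K.Cert.Mrg

/-!
# P236K / F87 / D : the tables with their values
-/

noncomputable section

namespace Vale.Agent.P236K.F87

open Vale.Agent.P236K.Cert

/-- choice of the precision -/
def ms3 (t : ℕ) : ℕ := Bool.rec 0 3 (Nat.ble 3 t)

/-- the tables -/
def FF : FT := FN K53.nvS fm3 ms3

end Vale.Agent.P236K.F87
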