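import Vale.Agent.P236K.F87.D
import Vale.Agent.P236K.Core.RowB
import Vale.Agent.P236K.Core.LData

/-!
# P236K / F87 : the test of the products
-/

namespace Vale.Agent.P236K.F87

open Vale.Agent.P236K.Core

theorem p8 : rowsB FF LD.L8 = true := by decide +kernel

theorem p9 : rowsB FF LD.L9 = true := by decide +kernel

end Vale.Agent.P236K.F87
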