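import Vale.Agent.P236K.F87.C0
import Vale.Agent.P236K.F87.C1
import Vale.Agent.P236K.F87.C2
import Vale.Agent.P236K.F87.C3
import Vale.Agent.P236K.F87.C4
import Vale.Agent.P236K.F87.C5
import Vale.Agent.P236K.F87.P0
import Vale.Agent.P236K.F87.P1
import Vale.Agent.P236K.F87.P2
import Vale.Agent.P236K.F87.P3
import Vale.Agent.P236K.F87.P4
import Vale.Agent.P236K.F87.P5
import Vale.Agent.P236K.Core.AllB
import Vale.Agent.P236K.Core.Last
import Vale.Agent.P236K.Cert.P96L

/-!
# P236K / F87 / Fin : the final statement from the tests of the rows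
-/

namespace Vale.Agent.P236K.F87

open Vale.Agent.P236K.Cert Vale.Agent.P236K.Core

theorem chk : ∀ s ≤ FF.S, ∀ t ≤ FF.T, FF.chk s t = true := by
  intro s hs t ht
  have h : FF.chkR s 0 90 = true := by
    have h1 : s ≤ 24 := hs
    match s, h1 with
    | 0, _ => exact c0
    | 1, _ => exact c1
    | 2, _ => exact c2
    | 3, _ => exact c3
    | 4, _ => exact c4
    | 5, _ => exact c5
    | 6, _ => exact c6
    | 7, _ => exact c7
    | 8, _ => exact c8
    | 9, _ => exact c9
    | 10, _ => exact c10
    | 11, _ => exact c11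
    | 12, _ => exact c12
    | 13, _ => exact c13
    | 14, _ => exact c14
    | 15, _ => exact c15
    | 16, _ => exact c16
    | 17, _ => exact c17
    | 18, _ => exact c18
    | 19, _ => exact c19
    | 20, _ => exact c20
    | 21, _ => exact c21
    | 22, _ => exact c22
    | 23, _ => exact c23
    | 24, _ => exact c24
    | _ + 25, h2 => exact absurd h2 (by omega)
  exact FF.chkR_sound h t (Nat.zero_le t) (Nat.lt_succ_of_le ht)

theorem prods : Prods FF LD.LL :=
  Prods.app p2 (Prods.app p3 (Prods.app p4 (Prods.app p5 (Prods.app p6 (Prods.app p7 (Prods.app p8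
  (Prods.app p9 (Prods.app p10 (Prods.app p11 (Prods.app p12 (Prods.app p13 (Prods.app p14
  (Prods.app p15 (Prods.app p16 (Prods.app p17 (Prods.app p18 (Prods.app p19 (Prods.of
  p21))))))))))))))))))

theorem thp : thD.prods FF true true false false = true := by decide +kernel

/-- **The final statement from the tests of the rows.** -/
theorem final_of_stp (stp : ∀ s, s + 1 < 24 → Stp (K53.QS s) (K53.QS (s + 1)) (lyS s).gl) :
    St.FINAL :=
  final_of_dat (N₀ := 193) Pl.D96 Pl.P96.lev0 K53.twS K53.unS (fit89 _ _ _) K53.nvS_eq (num89 _ _ _)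
    (lay89 _ _ _) K53.bot stp chk prods thp (allB_ok rfl rfl rfl rfl rfl) outOk

end Vale.Agent.P236K.F87
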