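import Vale.Agent.P236K.F87.Fin
import Vale.Agent.P236K.K53.All

/-!
# P236K / F87 / Final : the final statement
-/

namespace Vale.Agent.P236K.F87

/-- **The final statement.** -/
theorem final : St.FINAL := final_of_stp Cert.K53.stp

end Vale.Agent.P236K.F87
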